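import Vale.Agent.P275FS.Cd
import Vale.Agent.P275FD.Defs
import Vale.Agent.P275LM.Sh

/-! The dimension of the fibres from the vanishing of the cohomology of the total space. -/

open CategoryTheory TopologicalSpace Opposite Limits Set Filter P275S
open scoped Topology Manifold ContDiff
open Vale.Agent Vale.Agent.P272.K Vale.Agent.P277.H762
open Vale.Agent.P275LM (Flo Att)

noncomputable section

namespace P275FS

section scal

variable {M A : Type} [TopologicalSpace M] [TopologicalSpace A] {h : M → A} {a₀ : A}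
  {φ : ℝ → M → M} {Ψ : ℝ → A → A}

/-- a flow on `M` which covers a scaling of the base with centre `a₀` -/
structure Scal (h : M → A) (a₀ : A) (φ : ℝ → M → M) (Ψ : ℝ → A → A) : Prop where
  flo : Flo φ
  cont : Continuous fun p : ℝ × A => Ψ p.1 p.2
  zero : ∀ a, Ψ 0 a = a₀
  fix : ∀ s, Ψ s a₀ = a₀
  eqv : ∀ t x, h (φ t x) = Ψ (Real.exp t) (h x)

theorem Scal.tendsto (H : Scal h a₀ φ Ψ) (a : A) :
    Tendsto (fun t => Ψ (Real.exp t) a) atBot (𝓝 a₀) := by
  have h1 : Continuous fun s => Ψ s a := H.cont.comp (continuous_id.prodMk continuous_const)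
  exact (h1.tendsto' 0 a₀ (H.zero a)).comp Real.tendsto_exp_atBot

theorem Scal.contr (H : Scal h a₀ φ Ψ) : Contr h a₀ :=
  contr_of_tendsto (l := atBot) φ (fun t => Ψ (Real.exp t))
    (Eventually.of_forall fun t => ⟨H.flo.c1 t, (H.flo.hm t).injective, H.eqv t⟩) H.tendsto

theorem Scal.att [T1Space A] (H : Scal h a₀ φ Ψ) (hh : IsProperMap h) : Att φ (h ⁻¹' {a₀}) where
  toFlo := H.flo
  cpt := hh.isCompact_preimage isCompact_singleton
  inv t x hx := by
    have : h x = a₀ := hx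
    show h (φ t x) = a₀
    rw [H.eqv, this, H.fix]
  near y U hU hN := by
    have h1 : (h '' Uᶜ)ᶜ ∈ 𝓝 a₀ := by
      refine (hh.isClosedMap _ hU.isClosed_compl).isOpen_compl.mem_nhds ?_
      rintro ⟨x, hx, hx'⟩
      exact hx (hN hx')
    obtain ⟨t, ht⟩ := ((H.tendsto (h y)).eventually_mem h1).exists
    refine ⟨t, ?_⟩
    by_contra hcon
    exact ht ⟨_, hcon, H.eqv t y⟩
  bdd w K hK hw := by
    by_contra hcon
    have h1 : ∀ᶠ s in 𝓝 (0 : ℝ), ∀ a ∈ h '' K, Ψ s a ∈ ({h w}ᶜ : Set A) := by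
      refine (hK.image hh.continuous).eventually_forall_of_forall_eventually fun a _ => ?_
      refine H.cont.continuousAt.preimage_mem_nhds (isOpen_compl_singleton.mem_nhds ?_)
      rw [H.zero]
      exact fun e => hcon (Eq.symm e)
    obtain ⟨t, ht, ht'⟩ := ((Real.tendsto_exp_atBot.eventually h1).and
      (eventually_le_atBot 0)).exists
    refine ht _ ⟨_, hw (-t) (by linarith), rfl⟩ ?_
    rw [← H.eqv, H.flo.neg']
    rfl

/-- transport along a homeomorphism -/
theorem Scal.homeo {M' : Type} [TopologicalSpace M'] (ν : M' ≃ₜ M) {φ : ℝ → M' → M'}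
    (H : Scal (fun y => h (ν y)) a₀ φ Ψ) : Scal h a₀ (fun t x => ν (φ t (ν.symm x))) Ψ where
  flo := ⟨ν.continuous.comp (H.flo.cont.comp
      (continuous_fst.prodMk (ν.symm.continuous.comp continuous_snd))),
    fun x => by simp [H.flo.zero], fun s t x => by simp [H.flo.add]⟩
  cont := H.cont
  zero := H.zero
  fix := H.fix
  eqv t x := by simpa using H.eqv t (ν.symm x)

end scal

section atlas

variable {M : Type} [TopologicalSpace M]

/-- charts of varying dimension with holomorphic changes of coordinates -/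
structure HAt (M : Type) [TopologicalSpace M] where
  S : ∀ n, Set (Chart n M)
  hol : ∀ n m, ∀ e ∈ S n, ∀ e' ∈ S m, ∀ x ∈ e.source, x ∈ e'.source →
    DifferentiableAt ℂ (fun z => e' (e.symm z)) (e x)

namespace HAt

variable (H : HAt M)

theorem dim_le {n m : ℕ} {e : Chart n M} {e' : Chart m M} (he : e ∈ H.S n) (he' : e' ∈ H.S m)
    {x : M} (hx : x ∈ e.source) (hx' : x ∈ e'.source) : n ≤ m := by
  have h1 := (H.hol n m e he e' he' x hx hx').hasFDerivAt
  have h2 := (H.hol m n e' he' e he x hx' hx).hasFDerivAt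
  have h3 : e' x = e' (e.symm (e x)) := by rw [e.left_inv hx]
  rw [h3] at h2
  have h4 := (h2.comp (e x) h1).congr_of_eventuallyEq (f₁ := id) (by
    filter_upwards [e.open_target.mem_nhds (e.map_source hx),
      e.tendsto_symm hx (e'.open_source.mem_nhds hx')] with z a b
    show z = e (e'.symm (e' (e.symm z)))
    rw [e'.left_inv b, e.right_inv a])
  have h5 := h4.unique (hasFDerivAt_id (e x))
  have h6 : Function.Injective (fderiv ℂ (fun z => e' (e.symm z)) (e x)) :=
    Function.LeftInverse.injective (g := fderiv ℂ (fun z => e (e'.symm z)) (e' (e.symm (e x))))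
      fun v => congrArg (fun L : Cm n →L[ℂ] Cm n => L v) h5
  simpa using LinearMap.finrank_le_finrank_of_injective
    (f := (fderiv ℂ (fun z => e' (e.symm z)) (e x)).toLinearMap) h6

/-- the part of dimension `n` -/
def U (n : ℕ) : Opens M := ⟨⋃ e ∈ H.S n, e.source, isOpen_biUnion fun e _ => e.open_source⟩

theorem mem_U {n : ℕ} {x : M} : x ∈ H.U n ↔ ∃ e ∈ H.S n, x ∈ e.source := by
  simp [U, ← SetLike.mem_coe]

theorem eq_of_mem {n m : ℕ} {x : M} (h1 : x ∈ H.U n) (h2 : x ∈ H.U m) : n = m := by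
  obtain ⟨e, a, b⟩ := H.mem_U.1 h1
  obtain ⟨e', a', b'⟩ := H.mem_U.1 h2
  exact le_antisymm (H.dim_le a a' b b') (H.dim_le a' a b' b)

/-- the part of dimension `n`, as a manifold -/
def W (n : ℕ) : Type := H.U n

instance (n : ℕ) : TopologicalSpace (H.W n) := inferInstanceAs (TopologicalSpace (H.U n))
instance (n : ℕ) [T2Space M] : T2Space (H.W n) := inferInstanceAs (T2Space (H.U n))
instance (n : ℕ) [SecondCountableTopology M] : SecondCountableTopology (H.W n) :=
  inferInstanceAs (SecondCountableTopology (H.U n))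

instance (n : ℕ) : ChartedSpace (Cm n) (H.W n) where
  atlas := {c | ∃ (hs : Nonempty (H.U n)), ∃ e ∈ H.S n, c = e.subtypeRestr hs}
  chartAt x := (H.mem_U.1 x.2).choose.subtypeRestr ⟨x⟩
  mem_chart_source x := by
    erw [OpenPartialHomeomorph.subtypeRestr_source]
    exact (H.mem_U.1 x.2).choose_spec.2
  chart_mem_atlas x := ⟨⟨x⟩, _, (H.mem_U.1 x.2).choose_spec.1, rfl⟩

variable {H}

theorem an {n : ℕ} {e : Chart n M} {F : Type} [NormedAddCommGroup F] [NormedSpace ℂ F]
    [CompleteSpace F] {f : M → F} {V : Set M} (hV : IsOpen V)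
    (hf : ∀ x ∈ e.source, x ∈ V → DifferentiableAt ℂ (fun z => f (e.symm z)) (e x)) {x : M}
    (hx : x ∈ e.source) (hxV : x ∈ V) : AnalyticAt ℂ (fun z => f (e.symm z)) (e x) := by
  refine P268.analyticAt_of_differentiableOn (e.isOpen_inter_preimage_symm hV) (fun z hz => ?_)
    ⟨e.map_source hx, by simpa [e.left_inv hx] using hxV⟩
  have := hf _ (e.map_target hz.1) hz.2
  rw [e.right_inv hz.1] at this
  exact this.differentiableWithinAt

theorem an_restr {n : ℕ} {e : Chart n M} {F : Type} [NormedAddCommGroup F] [NormedSpace ℂ F]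
    {f : M → F} {U : Opens M} (hs : Nonempty U) {z : Cm n} (hz : z ∈ (e.subtypeRestr hs).target)
    (hf : AnalyticAt ℂ (fun z => f (e.symm z)) z) :
    AnalyticAt ℂ (fun z => f ((e.subtypeRestr hs).symm z : U)) z := by
  refine hf.congr ?_
  filter_upwards [(e.subtypeRestr hs).open_target.mem_nhds hz] with w hw
  exact congrArg f (e.subtypeRestr_symm_apply hs hw).symm

instance (n : ℕ) : IsManifold 𝓘(ℂ, Cm n) ω (H.W n) := by
  refine isManifold_of_contDiffOn _ _ _ ?_
  rintro _ _ ⟨hs, e, he, rfl⟩ ⟨hs', e', he', rfl⟩ z hz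
  obtain ⟨⟨h1, h2⟩, -⟩ := hz
  have h1' : z ∈ (e.subtypeRestr hs).target := h1
  have h3 : e.symm z = ((e.subtypeRestr hs).symm z : H.U n) :=
    (e.subtypeRestr_symm_apply hs h1').symm
  have h4 : e.symm z ∈ e'.source := by
    have : (e.subtypeRestr hs).symm z ∈ (e'.subtypeRestr hs').source := h2
    rw [OpenPartialHomeomorph.subtypeRestr_source] at this
    rw [h3]
    exact this
  have h5 : z ∈ e.target := e.subtypeRestr_target_subset hs h1'
  have h6 := an (e := e) (f := e') e'.open_source (H.hol n n e he e' he') (e.map_target h5) h4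
  rw [e.right_inv h5] at h6
  exact (an_restr hs h1' h6).contDiffAt.contDiffWithinAt

/-- transport along a homeomorphism -/
def homeo {M' : Type} [TopologicalSpace M'] (H : HAt M') (ν : M' ≃ₜ M) : HAt M where
  S n := {c | ∃ e ∈ H.S n, c = ν.symm.transOpenPartialHomeomorph e}
  hol := by
    rintro n m _ ⟨e, he, rfl⟩ _ ⟨e', he', rfl⟩ x hx hx'
    simpa using H.hol n m e he e' he' (ν.symm x) hx hx'

end HAt

end atlas

variable {k : Type} [Field k] {X : TopCat.{0}} [Nice X] {F : Cx k X} {n : ℤ}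

/-- a compact piece of a disjoint union -/
theorem van_piece (hF : SoftC F) {B B' : Set X} (hB : IsCompact B) (hB' : IsClosed B')
    (hd : Disjoint B B') (h : Van (𝟙 F) ∅ (B ∪ B') n) : Van (𝟙 F) ∅ B n := by
  intro s _ hs
  obtain ⟨u, -, a, b⟩ := (hF.2 n).cut_top hB s hB'.isOpen_compl
    fun x hx => Set.disjoint_left.1 hd hx.1
  obtain ⟨t, -, c⟩ := h u (by rw [empty_inter]; exact mem_Nv_empty _) (mem_Nv_union.2 ⟨by
    have := add_mem (app_mem_Nv (F.d n (n + 1)) b) hs
    rwa [map_sub, sub_add_cancel] at this, app_mem_Nv _ (mem_Nv.2 a)⟩)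
  refine ⟨t, by rw [empty_inter]; exact mem_Nv_empty _, ?_⟩
  have := add_mem (mem_Nv_union.1 c).1 (app_mem_Nv ((𝟙 F : F ⟶ F).f n) b)
  rwa [map_sub, sub_add_sub_cancel] at this

/-- vanishing of the cohomology passes to an attractor -/
theorem van_att {φ : ℝ → X → X} {N : Set X} (H : Att φ N)
    (h : ∀ s : sec ((I k X).X n) ⊤, app ((I k X).d n (n + 1)) ⊤ s = 0 →
      ∃ t, app ((I k X).d (n - 1) n) ⊤ t = s) : Van (𝟙 (I k X)) ∅ N n := by
  intro s _ hs
  have : (I k X).IsStrictlyGE 0 :=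
    inferInstanceAs ((injectiveResolution (cst k X)).cochainComplex.IsStrictlyGE 0)
  obtain ⟨t, a, b⟩ := (P275LM.att_van (P275LM.rs_unit (ιI k X) (softC_I k X)) H H.cpt.isClosed
    H.inv subset_rfl (n + 1)).flex (i := n) rfl rfl (s := app ((I k X).d n (n + 1)) ⊤ s)
    (by rwa [inter_univ]) (by rw [app_d_d]; exact zero_mem _)
  rw [inter_univ] at a
  have c : app ((I k X).d n (n + 1)) ⊤ (s - t) = 0 := by
    have := sub_eq_zero.1 (mem_Nv_univ.1 b)
    rw [map_sub, this]
    exact sub_self _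
  obtain ⟨u, hu⟩ := h _ c
  refine ⟨u, by rw [empty_inter]; exact mem_Nv_empty _, ?_⟩
  have e : app ((I k X).d (n - 1) n) ⊤ u - app ((𝟙 (I k X) : I k X ⟶ I k X).f n) ⊤ s = -t := by
    rw [hu]
    show s - t - s = -t
    abel
  rw [e]
  exact neg_mem a

/-- the central fibre -/
theorem cvAt_of_van (htop : P275FD.TOP) {Y : Type} {h : X → Y} {a₀ : Y} (hc : IsCompact (h ⁻¹' {a₀}))
    (H : HAt X) (cov : ∀ x, h x = a₀ → ∃ n, ∃ e ∈ H.S n, x ∈ e.source) {m : ℕ}
    (κ : Fin m → Y → ℂ) (hκ : ∀ a b, (∀ i, κ i a = κ i b) → a = b)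
    (hol : ∀ n, ∀ e ∈ H.S n, ∀ x ∈ e.source, ∀ i,
      DifferentiableAt ℂ (fun z => κ i (h (e.symm z))) (e x)) {R : ℕ}
    (van : ∀ j : ℤ, 2 * R < j → Van (𝟙 (I ℂ X)) ∅ (h ⁻¹' {a₀}) j) (x : X) (hx : h x = a₀) :
    CvAt R h x := by
  obtain ⟨n, e, he, hxe⟩ := cov x hx
  have hcov : ∀ y, h y = a₀ → ∃ j, y ∈ H.U j := fun y hy =>
    let ⟨j, c, a, b⟩ := cov y hy
    ⟨j, H.mem_U.2 ⟨c, a, b⟩⟩
  have e1 : h ⁻¹' {a₀} ∩ H.U n = h ⁻¹' {a₀} \ ⋃ j ∈ {j | j ≠ n}, (H.U j : Set X) := by
    ext y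
    refine and_congr_right fun hy => ⟨fun a b => ?_, fun a => ?_⟩
    · obtain ⟨j, c, d⟩ := mem_iUnion₂.1 b
      exact c (H.eq_of_mem d a)
    · obtain ⟨j, c⟩ := hcov y hy
      by_cases d : j = n
      · exact d ▸ c
      · exact (a (mem_biUnion d c)).elim
  have h1 : IsCompact (h ⁻¹' {a₀} ∩ H.U n) := by
    rw [e1]
    exact hc.diff (isOpen_biUnion fun j _ => (H.U j).2)
  let i : C(H.W n, X) := ⟨Subtype.val, continuous_subtype_val⟩
  have hi : Topology.IsEmbedding i := Topology.IsEmbedding.subtypeVal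
  have e2 : i '' (i ⁻¹' (h ⁻¹' {a₀})) = h ⁻¹' {a₀} ∩ H.U n := by
    rw [image_preimage_eq_inter_range]
    exact congrArg _ Subtype.range_coe
  have han : ∀ (c : Chart n X), c ∈ H.S n → ∀ y ∈ c.source, ∀ l,
      AnalyticAt ℂ (fun z => κ l (h (c.symm z))) (c y) := fun c a y b l =>
    HAt.an (f := fun y => κ l (h y)) isOpen_univ (fun y d _ => hol n c a y d l) b trivial
  have h2 := htop n (H.W n) X i hi (i ⁻¹' (h ⁻¹' {a₀})) R
    (hi.isInducing.isCompact_iff.2 (e2 ▸ h1)) (fun y => ⟨m, fun l w => κ l (h (i w)) - κ l a₀,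
      fun l => by
        rintro _ ⟨⟨hs, c, a, rfl⟩, b⟩
        have b' : y.1 ∈ c.source := by
          erw [OpenPartialHomeomorph.subtypeRestr_source] at b
          exact b
        exact (HAt.an_restr (f := fun y => κ l (h y)) hs ((c.subtypeRestr hs).map_source b)
          (han c a _ b' l)).sub analyticAt_const,
      Eventually.of_forall fun w => ⟨fun a l => by
        have : h (i w) = a₀ := a
        simp [this], fun a => hκ _ _ fun l => sub_eq_zero.1 (a l)⟩⟩)
    (fun j hj => by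
      rw [e2]
      refine van_piece (softC_I ℂ X) h1 (hc.diff (H.U n).2).isClosed
        (Set.disjoint_left.2 fun y a b => b.2 a.2) ?_
      erw [inter_union_sdiff]
      exact van j hj)
  have hxU : x ∈ H.U n := H.mem_U.2 ⟨e, he, hxe⟩
  have hs : Nonempty (H.U n) := ⟨⟨x, hxU⟩⟩
  refine ⟨n, m, e, κ, hκ, hxe, han e he x hxe, (e.subtypeRestr hs).target,
    (e.subtypeRestr hs).open_target.mem_nhds (e.map_subtype_source hs (x := ⟨x, hxU⟩) hxe),
    (h2 _ ⟨hs, e, he, rfl⟩).mono ?_⟩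
  rintro z ⟨a, b⟩
  refine ⟨(e.subtypeRestr hs).symm z, ⟨?_, (e.subtypeRestr hs).map_target a⟩,
    (e.subtypeRestr hs).right_inv a⟩
  exact (congrArg h (e.subtypeRestr_symm_apply hs a)).trans (b.trans hx)

/-- **Fibre dimension.** A proper map with a scaling, holomorphic near the central fibre; the
cohomology of the total space vanishes above `2 R`. Then all fibres have local finite maps to
`ℝ^(2 R)`. -/
theorem fd (htop : P275FD.TOP) {Y : Type} [TopologicalSpace Y] [T1Space Y] {h : X → Y} 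
    (hh : IsProperMap h) {a₀ : Y} {φ : ℝ → X → X} {Ψ : ℝ → Y → Y} (hs : Scal h a₀ φ Ψ)
    (H : HAt X) (cov : ∀ x, h x = a₀ → ∃ n, ∃ e ∈ H.S n, x ∈ e.source) {m : ℕ}
    (κ : Fin m → Y → ℂ) (hκ : ∀ a b, (∀ i, κ i a = κ i b) → a = b)
    (hol : ∀ n, ∀ e ∈ H.S n, ∀ x ∈ e.source, ∀ i,
      DifferentiableAt ℂ (fun z => κ i (h (e.symm z))) (e x)) {R : ℕ}
    (van : ∀ j : ℤ, 2 * R < j → ∀ s : sec ((I ℂ X).X j) ⊤, app ((I ℂ X).d j (j + 1)) ⊤ s = 0 →
      ∃ t, app ((I ℂ X).d (j - 1) j) ⊤ t = s) (x : X) : FinAt (2 * R) h x :=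
  finAt_of_cvAt hh.isClosedMap hs.contr (cvAt_of_van htop (hs.att hh).cpt H cov κ hκ hol
    fun j hj => van_att (hs.att hh) (van j hj)) x

end P275FS
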