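import Vale.Agent.P275FS.Top
import Vale.Agent.P275S.SoftB
import Vale.Agent.P275S.God

/-! Cohomological dimension of sets with local finite maps to `ℝ^d`. -/

open CategoryTheory TopologicalSpace Opposite Limits Set P275S
open scoped Topology

noncomputable section

namespace P275FS

variable {k : Type} [Field k] {X Y : TopCat.{0}} {F : Cx k X} {p : F ⟶ F} {A B : Set X} {n : ℤ}

/-- The resolution of the constant sheaf is exact in nonzero degrees. -/
theorem exAt_I (k : Type) [Field k] {n : ℤ} (hn : n ≠ 0) (x : X) : ExAt (I k X) n x :=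
  (((P275S.quasiIso_iff (ιI k X)).1 inferInstance x).exAt_iff n).1
    (exAt_of_isZero (HomologicalComplex.isZero_single_obj_X _ _ _ _ hn) x)

variable [Nice X]

/-- Union of two compact sets without loss of a degree. -/
theorem van_union' (hF : SoftC F) (hp : Homotopy (p ≫ p) p) (hA : IsClosed A) {B' : Set X}
    (hB : IsCompact B) (hB' : IsCompact B') (h₁ : Van p A B n) (h₂ : Van p (A ∪ B) B' n) :
    Van p A (B ∪ B') n := by
  refine van_fil hp (subset_union_left (t := B)) ?_ ?_
  · exact van_union hF hp (hA.union hB.isClosed) hB hB'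
      (van_of_subset p fun x hx => Or.inr hx.1) (van_of_subset p subset_union_right) h₂
  · have e : (A ∪ B) ∩ (B ∪ B') = B ∪ A ∩ B' := by
      ext x
      simp only [mem_inter_iff, mem_union]
      tauto
    rw [e]
    exact van_union hF hp hA hB (hB'.inter_left hA) (van_of_subset p fun x hx => hx.2.1) h₁
      (van_of_subset p inter_subset_left)

/-- Vanishing for all small compact sets and all larger closed sets is local. -/
theorem van_of_local (hF : SoftC F) (hp : Homotopy (p ≫ p) p) (hA : IsClosed A)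
    (hB : IsCompact B) (h : ∀ x ∈ B, ∃ V ∈ 𝓝 x, ∀ C ⊆ B ∩ V, IsCompact C →
      ∀ A', IsClosed A' → A ⊆ A' → Van p A' C n) : Van p A B n := by
  have key : ∃ C, IsCompact C ∧ B ⊆ C ∧ ∀ C' ⊆ C, IsCompact C' →
      ∀ A', IsClosed A' → A ⊆ A' → Van p A' C' n := by
    refine hB.induction_on (p := fun S => ∃ C, IsCompact C ∧ S ⊆ C ∧ ∀ C' ⊆ C, IsCompact C' →
      ∀ A', IsClosed A' → A ⊆ A' → Van p A' C' n) ?_ ?_ ?_ ?_
    · refine ⟨∅, isCompact_empty, subset_rfl, fun C' hC' _ A' _ _ => ?_⟩
      rw [subset_empty_iff.1 hC']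
      exact van_empty p
    · rintro s t hst ⟨C, a, b, c⟩
      exact ⟨C, a, hst.trans b, c⟩
    · rintro s t ⟨C, a, b, c⟩ ⟨D, a', b', c'⟩
      refine ⟨C ∪ D, a.union a', union_subset_union b b', fun C' hC' hc A' hA' hAA => ?_⟩
      have e : C' = C' ∩ C ∪ C' ∩ D := by rw [← inter_union_distrib_left, inter_eq_left.2 hC']
      have h1 := hc.inter_right a.isClosed
      have h2 := hc.inter_right a'.isClosed
      rw [e]
      exact van_union' hF hp hA' h1 h2 (c _ inter_subset_right h1 _ hA' hAA)
        (c' _ inter_subset_right h2 _ (hA'.union h1.isClosed) (hAA.trans subset_union_left))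
    · intro x hx
      obtain ⟨V, hV, hV'⟩ := h x hx
      obtain ⟨K, hK, hKV, hKc⟩ := local_compact_nhds hV
      exact ⟨B ∩ K, inter_mem_nhdsWithin _ hK, B ∩ K, hB.inter_right hKc.isClosed, subset_rfl,
        fun C' hC' => hV' C' (hC'.trans (inter_subset_inter_right _ hKV))⟩
  obtain ⟨C, -, b, c⟩ := key
  exact c B b hB A hA subset_rfl

/-- **Cohomological dimension** of a compact set with local finite maps to `ℝ^d`. -/
theorem van_locFin (hF : SoftC F) (hp : Homotopy (p ≫ p) p) (hA : IsClosed A) (hB : IsCompact B)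
    {d : ℕ} (hd : LocFin d B) {c : ℤ} (h : ∀ x ∈ B, x ∉ A → ∀ j, c < j → ZeroAt p j x)
    (hn : c + d < n) : Van p A B n := by
  refine van_of_local hF hp hA hB fun x hx => ?_
  obtain ⟨V, hV, g, hg, hf⟩ := hd x hx
  refine ⟨V, hV, fun C hC hc A' hA' hAA => van_cd_fin hF hp hA' hc g (hg.mono hC)
    (fun r => (hf r).subset (inter_subset_inter_left _ hC))
    (fun y hy hy' => h y (hC hy).1 fun a => hy' (hAA a)) hn⟩

/-- the same when only `B ∖ A` has local finite maps -/
theorem van_locFin' (hF : SoftC F) (hp : Homotopy (p ≫ p) p) (hA : IsClosed A) (hB : IsCompact B)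
    {S : Set X} (hS : IsClosed S) {d : ℕ} (hd : LocFin d S) {c : ℤ}
    (h₀ : ∀ x ∈ B, x ∉ A → x ∉ S → ∀ j, ZeroAt p j x)
    (h : ∀ x ∈ B, x ∉ A → ∀ j, c < j → ZeroAt p j x) (hn : c + d < n) : Van p A B n := by
  have h1 : IsCompact (B ∩ S) := hB.inter_right hS
  have e : B = B ∩ S ∪ B := (union_eq_right.2 inter_subset_left).symm
  rw [e]
  exact van_union' hF hp hA h1 hB
    (van_locFin hF hp hA h1 (hd.mono inter_subset_right) (fun x hx => h x hx.1) hn)
    (van_loc hF hp (hA.union h1.isClosed) hB fun x hx hx' m _ =>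
      h₀ x hx (fun a => hx' (Or.inl a)) (fun a => hx' (Or.inr ⟨hx, a⟩)) m)

/-- constant coefficients -/
theorem van_I (k : Type) [Field k] (hA : IsClosed A) (hB : IsCompact B) {d : ℕ} (hd : LocFin d B)
    (hn : (d : ℤ) < n) : Van (𝟙 (I k X)) A B n :=
  van_locFin (softC_I k X) (idemId _) hA hB hd (c := 0)
    (fun x _ _ _ hj => (zeroAt_id _ _ _).2 (exAt_I k hj.ne' x)) (by simpa using hn)

/-- The cohomology of an open set with local finite maps to `ℝ^d` vanishes above `d + 1`. -/
theorem gam_I (k : Type) [Field k] (U : Opens X) {d : ℕ} (hd : LocFin d (U : Set X))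
    (hn : (d : ℤ) + 1 < n) (s : sec ((I k X).X n) U) (hs : app ((I k X).d n (n + 1)) U s = 0) :
    ∃ t : sec ((I k X).X (n - 1)) U, app ((I k X).d (n - 1) n) U t = s :=
  gam_of_van (softC_I k X) (idemId _) U
    (fun _ a b => van_I k isClosed_empty a (hd.mono b) (by omega))
    (fun _ a b => van_I k isClosed_empty a (hd.mono b) (by omega)) s hs

/-- The cohomology of a compact space with local finite maps to `ℝ^d` vanishes above `d`. -/
theorem gam_I_compact (k : Type) [Field k] [CompactSpace X] {d : ℕ} (hd : LocFin d (univ : Set X))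
    (hn : (d : ℤ) < n) (s : sec ((I k X).X n) ⊤) (hs : app ((I k X).d n (n + 1)) ⊤ s = 0) :
    ∃ t : sec ((I k X).X (n - 1)) ⊤, app ((I k X).d (n - 1) n) ⊤ t = s := by
  obtain ⟨t, -, ht⟩ := van_I k isClosed_empty isCompact_univ hd hn s
    (by rw [empty_inter]; exact mem_Nv_empty _) (by rw [hs]; exact zero_mem _)
  exact ⟨t, sub_eq_zero.1 (mem_Nv_univ.1 ht)⟩

/-- The direct image under a proper map vanishes above the dimension of the fibre. -/
theorem exAt_push (k : Type) [Field k] {h : X ⟶ Y} (hh : IsProperMap h) {a : Y} {d : ℕ}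
    (hd : LocFin d (h ⁻¹' {a})) (hn : (d : ℤ) < n) : ExAt ((pushC k h).obj (I k X)) n a := by
  rw [← zeroAt_id, ← CategoryTheory.Functor.map_id]
  exact (zeroAt_push_iff hh ((softC_I k X).2 _) ((softC_I k X).2 _) a).2
    (van_I k isClosed_empty (hh.isCompact_preimage isCompact_singleton) hd hn)

/-- **Fibre dimension.** `h` proper with a contracting scaling, central fibre of dimension at most
`R` in charts: all direct images vanish above `2 R`. -/
theorem exAt_push_of_cvAt (k : Type) [Field k] {h : X ⟶ Y} (hh : IsProperMap h) {a₀ : Y} {R : ℕ}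
    (hc : Contr h a₀) (h0 : ∀ x, h x = a₀ → CvAt R h x) (a : Y) (hn : (2 * R : ℤ) < n) :
    ExAt ((pushC k h).obj (I k X)) n a :=
  exAt_push k hh (locFin_fibre (finAt_of_cvAt hh.isClosedMap hc h0) a) (by exact_mod_cast hn)

end P275FS
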