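import Vale.Agent.P275FS.Fd
import Vale.Agent.P275MO.Props
import Vale.Agent.P275ST.Geo

/-! The dimension of the fibres for slices of the moduli spaces. -/

open CategoryTheory TopologicalSpace Set Filter P275S Metric
open scoped Topology Matrix.Norms.Operator
open Vale.Agent Vale.Agent.P272.K
open Vale.Agent.P275LM (Flo Att)
open Vale.Agent.P275MO (Dat Ty Ob Mod FamOn HFamOn Pm KUR)
open Vale.Agent.P275NA (Cy)

noncomputable section

namespace P275FS

section slice

variable {M Z E V : Type} [TopologicalSpace M] [TopologicalSpace Z] [TopologicalSpace E]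
  [TopologicalSpace V]

/-- the chart of a slice -/
def slice [Nonempty M] (e : OpenPartialHomeomorph Z E) {j : M → Z} (hj : Topology.IsEmbedding j)
    {ι : V → E} {π : E → V} (hι : Continuous ι) (hπ : Continuous π) (h1 : ∀ v, π (ι v) = v)
    (h2 : ∀ w ∈ e.target, e.symm w ∈ range j ↔ ι (π w) = w) : OpenPartialHomeomorph M V where
  toFun y := π (e (j y))
  invFun v := Function.invFun j (e.symm (ι v))
  source := j ⁻¹' e.source
  target := ι ⁻¹' e.target
  map_source' y hy := by
    have a := e.map_source hy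
    rw [mem_preimage, (h2 _ a).1 ⟨y, (e.left_inv hy).symm⟩]
    exact a
  map_target' v hv := by
    rw [mem_preimage, Function.invFun_eq ((h2 _ hv).2 (by rw [h1]))]
    exact e.map_target hv
  left_inv' y hy := by
    rw [(h2 _ (e.map_source hy)).1 ⟨y, (e.left_inv hy).symm⟩, e.left_inv hy,
      Function.leftInverse_invFun hj.injective]
  right_inv' v hv := by
    rw [Function.invFun_eq ((h2 _ hv).2 (by rw [h1])), e.right_inv hv, h1]
  open_source := e.open_source.preimage hj.continuous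
  open_target := e.open_target.preimage hι
  continuousOn_toFun := hπ.comp_continuousOn
    (e.continuousOn.comp hj.continuous.continuousOn fun _ a => a)
  continuousOn_invFun := by
    rw [hj.isInducing.continuousOn_iff]
    refine (e.continuousOn_symm.comp hι.continuousOn fun _ a => a).congr fun v hv => ?_
    exact Function.invFun_eq ((h2 _ hv).2 (by rw [h1]))

/-- a flow which keeps the range of an embedding -/
theorem Flo.pull [Nonempty M] {j : M → Z} (hj : Topology.IsEmbedding j) {φ : ℝ → Z → Z}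
    (hc : ContinuousOn (fun p : ℝ × Z => φ p.1 p.2) (univ ×ˢ range j))
    (h0 : ∀ x, φ 0 (j x) = j x) (ha : ∀ s t x, φ (s + t) (j x) = φ s (φ t (j x)))
    (hr : ∀ t x, φ t (j x) ∈ range j) :
    ∃ φ' : ℝ → M → M, Flo φ' ∧ ∀ t x, j (φ' t x) = φ t (j x) := by
  have e : ∀ t x, j (Function.invFun j (φ t (j x))) = φ t (j x) := fun t x =>
    Function.invFun_eq (hr t x)
  refine ⟨fun t x => Function.invFun j (φ t (j x)), ⟨?_, fun x => hj.injective ?_,
    fun s t x => hj.injective ?_⟩, e⟩
  · rw [hj.continuous_iff]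
    refine (hc.comp_continuous (f := fun p : ℝ × M => (p.1, j p.2))
      (continuous_fst.prodMk (hj.continuous.comp continuous_snd))
      fun p => ⟨trivial, p.2, rfl⟩).congr fun p => (e _ _).symm
  · rw [e, h0]
  · rw [e, e, e, ha]

end slice

variable {C : Type} [TopologicalSpace C] {n : ℕ} {A : P275GC.At C} {l : Cy A ℂ} {τ : Ty n}

theorem famOn_congr {T : Type} [TopologicalSpace T] {F F' : T → Dat C A.N n} {V : Set T}
    (h : FamOn A l F V) (e : ∀ t ∈ V, F' t = F t) : FamOn A l F' V where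
  good t ht := e t ht ▸ h.good t ht
  lam := h.lam.congr fun t ht => by simp only [e t ht]
  x := h.x.congr fun t ht => by simp only [e t ht]
  R := h.R.congr fun t ht => by simp only [e t ht]
  g i j := (h.g i j).congr fun p hp => by simp only [e _ hp.1]
  a i := ((h.a i).mono (by exact fun p hp => ⟨hp.1, e _ hp.1 ▸ hp.2⟩)).congr fun p hp => by
    simp only [e _ hp.1]
  σ i := ((h.σ i).mono (by exact fun p hp => ⟨hp.1, e _ hp.1 ▸ hp.2⟩)).congr fun p hp => by
    simp only [e _ hp.1]

theorem hFamOn_comp {E E' : Type} [NormedAddCommGroup E] [NormedSpace ℂ E] [NormedAddCommGroup E']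
    [NormedSpace ℂ E'] {F : E → Dat C A.N n} {F' : E' → Dat C A.N n} {W : Set E} {W' : Set E'}
    (h : HFamOn A l F W) {u : E' → E} (hu : Differentiable ℂ u) (hW : ∀ t ∈ W', u t ∈ W)
    (e : ∀ t ∈ W', F' t = F (u t)) : HFamOn A l F' W' := by
  have hc := hu.continuous
  have h2 : Differentiable ℂ fun p : E' × ℂ => (u p.1, p.2) :=
    (hu.comp differentiable_fst).prodMk differentiable_snd
  have h0 : FamOn A l (fun t => F (u t)) W' :=
    ⟨fun t ht => h.good _ (hW t ht), h.lam.comp hc.continuousOn hW, h.x.comp hc.continuousOn hW,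
      h.R.comp hc.continuousOn hW,
      fun i j => (h.g i j).comp h2.continuous.continuousOn fun p hp => ⟨hW _ hp.1, hp.2⟩,
      fun i => (h.a i).comp h2.continuous.continuousOn fun p hp => ⟨hW _ hp.1, hp.2⟩,
      fun i => (h.σ i).comp hc.continuousOn fun p hp => ⟨hW _ hp.1, hp.2⟩⟩
  refine ⟨famOn_congr h0 e, (h.hlam.comp hu.differentiableOn hW).congr fun t ht => ?_,
    fun i => ((h.hx i).comp hu.differentiableOn
      (by exact fun p hp => ⟨hW _ hp.1, e _ hp.1 ▸ hp.2⟩)).congr
      fun t ht => ?_, (h.hR.comp hu.differentiableOn hW).congr fun t ht => ?_,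
    fun i j => ((h.hg i j).comp h2.differentiableOn fun p hp => ⟨hW _ hp.1, hp.2⟩).congr
      fun t ht => ?_,
    fun i => ((h.ha i).comp h2.differentiableOn
      (by exact fun p hp => ⟨hW _ hp.1, e _ hp.1 ▸ hp.2⟩)).congr
      fun t ht => ?_,
    fun i => ((h.hσ i).comp hu.differentiableOn
      (by exact fun p hp => ⟨hW _ hp.1, e _ hp.1 ▸ hp.2⟩)).congr
      fun t ht => ?_⟩
  · simp only [e _ ht, Function.comp]
  · simp only [e _ ht.1, Function.comp]
  · simp only [e _ ht, Function.comp]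
  · simp only [e _ ht.1, Function.comp]
  · simp only [e _ ht.1, Function.comp]
  · simp only [e _ ht.1, Function.comp]

/-- `f` is holomorphic along the holomorphic families with values in `S` -/
def HolM {F : Type} [NormedAddCommGroup F] [NormedSpace ℂ F] (S : Set (Mod A l τ))
    (f : Mod A l τ → F) : Prop :=
  ∀ (E : Type) [NormedAddCommGroup E] [NormedSpace ℂ E] [FiniteDimensional ℂ E]
    (G : E → Ob A l τ) (V : Set E) (t : E) (r : ℝ) (h1 : 1 < r) (h2 : r ≤ A.R), V ∈ 𝓝 t →
    HFamOn (A.res r h1 h2) l (fun s => (G s).1) V → (∀ s ∈ V, (G s).pt ∈ S) →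
    DifferentiableAt ℂ (fun s => f (G s).pt) t

/-- the last coordinates of a Kuranishi chart -/
def crd (m D : ℕ) : ((Fin m → ℂ) × (Fin D → ℂ)) ≃L[ℂ] Cm (m + D) :=
  ContinuousLinearEquiv.ofFinrankEq (by simp)

/-- the slice `λ = lam`, `x = ξ` of the parameter space -/
def inc (m D : ℕ) (lam ξ : ℂ) (v : Cm (m + D)) : Pm m D := (lam, ξ, (crd m D).symm v)

theorem differentiable_inc (m D : ℕ) (lam ξ : ℂ) : Differentiable ℂ (inc m D lam ξ) :=
  (differentiable_const _).prodMk ((differentiable_const _).prodMk (crd m D).symm.differentiable)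

variable {M : Type} [TopologicalSpace M] [Nonempty M] {j : M → Mod A l τ} {lam : ℂ} {p : C}

omit [TopologicalSpace M] [Nonempty M] in
theorem mem_range_iff (rng : range j = {y | y.lam = lam ∧ y.x = p}) (K : P275MO.Chart A l τ)
    (hp : p ∈ (A.e K.i0).source) : ∀ w ∈ K.e.target, K.e.symm w ∈ range j ↔
      inc τ.m K.D lam (A.e K.i0 p) (crd τ.m K.D w.2.2) = w := by
  intro w hw
  rw [rng, K.symm w hw]
  change (K.F w).lam = lam ∧ (K.F w).x = p ↔ _
  have h1 : w.2.1 ∈ (A.e K.i0).target := by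
    rw [A.tgt]
    exact ball_subset_ball K.h2 (K.x w hw).1
  rw [K.lam w hw, (K.x w hw).2, inc, ContinuousLinearEquiv.symm_apply_apply]
  constructor
  · rintro ⟨a, b⟩
    rw [← a, ← b, (A.e K.i0).right_inv h1]
  · intro a
    have b := congrArg (fun q : Pm τ.m K.D => q.2.1) a
    refine ⟨(congrArg Prod.fst a).symm, ?_⟩
    simp only at b
    rw [← b, (A.e K.i0).left_inv hp]

/-- the chart of the slice given by a Kuranishi chart -/
def slc (hj : Topology.IsEmbedding j) (rng : range j = {y | y.lam = lam ∧ y.x = p})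
    (K : P275MO.Chart A l τ) (hp : p ∈ (A.e K.i0).source) : Chart (τ.m + K.D) M :=
  slice K.e hj (π := fun w => crd τ.m K.D w.2.2)
    (differentiable_inc τ.m K.D lam (A.e K.i0 p)).continuous
    ((crd τ.m K.D).continuous.comp (continuous_snd.comp continuous_snd))
    (fun v => by simp [inc]) (mem_range_iff rng K hp)

variable {hj : Topology.IsEmbedding j} {rng : range j = {y | y.lam = lam ∧ y.x = p}}

/-- the family over the chart of a slice -/
theorem exists_fam (K : P275MO.Chart A l τ) (hp : p ∈ (A.e K.i0).source) (x : M) :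
    ∃ G : Cm (τ.m + K.D) → Ob A l τ,
      HFamOn (A.res K.r K.h1 K.h2) l (fun s => (G s).1) (slc hj rng K hp).target ∧
      ∀ s ∈ (slc hj rng K hp).target, (G s).pt = j ((slc hj rng K hp).symm s) := by
  have key : ∀ w : Pm τ.m K.D, ∃ z : Ob A l τ, w ∈ K.e.target → z.1 = K.F w := fun w => by
    by_cases h : w ∈ K.e.target
    · exact ⟨⟨_, K.ob _ h⟩, fun _ => rfl⟩
    · exact ⟨(j x).rep, fun a => (h a).elim⟩
  choose G hG using key
  refine ⟨fun s => G (inc τ.m K.D lam (A.e K.i0 p) s),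
    hFamOn_comp K.fam (differentiable_inc τ.m K.D lam (A.e K.i0 p))
      (fun _ a => a) fun s hs => hG _ hs, fun s hs => ?_⟩
  have hs' : inc τ.m K.D lam (A.e K.i0 p) s ∈ K.e.target := hs
  have h1 : (G (inc τ.m K.D lam (A.e K.i0 p) s)).pt = K.e.symm (inc τ.m K.D lam (A.e K.i0 p) s) :=
    (congrArg P275MO.Ob.pt (Subtype.ext (hG _ hs'))).trans (K.symm _ hs').symm
  exact h1.trans (Function.invFun_eq ((mem_range_iff rng K hp _ hs').2 (by simp [inc]))).symm

variable (hj rng) in
/-- the atlas of a slice -/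
def hat : HAt M where
  S D := {c | ∃ (K : P275MO.Chart A l τ) (hp : p ∈ (A.e K.i0).source) (e : D = τ.m + K.D),
    HEq c (slc hj rng K hp)}
  hol := by
    rintro _ _ c ⟨K, hp, rfl, a⟩ c' ⟨K', hp', rfl, a'⟩ x hx hx'
    obtain rfl := eq_of_heq a
    obtain rfl := eq_of_heq a'
    obtain ⟨G, hG, hG'⟩ := exists_fam (hj := hj) (rng := rng) K hp x
    have h1 := (slc hj rng K hp).map_source hx
    have h2 := (slc hj rng K hp).open_target.mem_nhds h1
    have h3 := K'.hol _ G _ _ _ _ _ h2 hG (by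
      rw [hG' _ h1, (slc hj rng K hp).left_inv hx]
      exact hx')
    refine (((crd τ.m K'.D).differentiable _).comp _ h3.snd.snd).congr_of_eventuallyEq ?_
    filter_upwards [h2] with s hs
    show crd τ.m K'.D (K'.e (j _)).2.2 = crd τ.m K'.D (K'.e (G s).pt).2.2
    rw [hG' s hs]

theorem hat_cov (kur : KUR n A l) (x : M) : ∃ D, ∃ c ∈ (hat hj rng).S D, x ∈ c.source := by
  obtain ⟨K, hK⟩ := kur τ (j x)
  have hw := K.e.map_source hK
  have h1 : (j x).x = p := (rng.subset ⟨x, rfl⟩).2
  rw [← K.e.left_inv hK, K.symm _ hw] at h1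
  have h2 : (K.F (K.e (j x))).x = p := h1
  have hp : p ∈ (A.e K.i0).source := by
    rw [← h2, (K.x _ hw).2]
    refine (A.e K.i0).map_target ?_
    rw [A.tgt]
    exact ball_subset_ball K.h2 (K.x _ hw).1
  exact ⟨_, slc hj rng K hp, ⟨K, hp, rfl, HEq.rfl⟩, hK⟩

theorem hat_hol {F : Type} [NormedAddCommGroup F] [NormedSpace ℂ F] {f : Mod A l τ → F}
    (hf : HolM (range j) f) : ∀ D, ∀ c ∈ (hat hj rng).S D, ∀ x ∈ c.source,
      DifferentiableAt ℂ (fun z => f (j (c.symm z))) (c x) := by
  rintro _ c ⟨K, hp, rfl, a⟩ x hx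
  obtain rfl := eq_of_heq a
  obtain ⟨G, hG, hG'⟩ := exists_fam (hj := hj) (rng := rng) K hp x
  have h2 := (slc hj rng K hp).open_target.mem_nhds ((slc hj rng K hp).map_source hx)
  refine (hf _ G _ _ _ _ _ h2 hG fun s hs => ⟨_, (hG' s hs).symm⟩).congr_of_eventuallyEq ?_
  filter_upwards [h2] with s hs
  rw [hG' s hs]

/-- the scaling of the Hitchin base -/
def scB {C : Type} [TopologicalSpace C] [ChartedSpace ℂ C] {n : ℕ} (s : ℂ)
    (a : P275ST.Base C n) : P275ST.Base C n := fun i => s ^ ((i : ℕ) + 2) • a i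

theorem continuous_scB {C : Type} [TopologicalSpace C] [ChartedSpace ℂ C] {n : ℕ} :
    Continuous fun q : ℂ × P275ST.Base C n => scB q.1 q.2 :=
  continuous_pi fun i => (continuous_fst.pow _).smul ((continuous_apply i).comp continuous_snd)

theorem continuous_scBR {C : Type} [TopologicalSpace C] [ChartedSpace ℂ C] {n : ℕ} :
    Continuous fun q : ℝ × P275ST.Base C n => scB (q.1 : ℂ) q.2 :=
  continuous_pi fun i => ((Complex.continuous_ofReal.comp continuous_fst).pow _).smul
    ((continuous_apply i).comp continuous_snd)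

/-- **Fibre dimension** for a slice of a moduli space. -/
theorem fd_mod (htop : P275FD.TOP) (kur : KUR n A l) {X : TopCat.{0}} [Nice X]
    {j : X → Mod A l τ} (hj : Topology.IsEmbedding j)
    (rng : range j = {y | y.lam = lam ∧ y.x = p}) {C' : Type} [TopologicalSpace C']
    [ChartedSpace ℂ C'] {n' : ℕ} [FiniteDimensional ℂ (P275ST.Base C' n')]
    {hM : Mod A l τ → P275ST.Base C' n'} (hh : IsProperMap fun x => hM (j x)) {ι : Type}
    (κ : ι → P275ST.Base C' n' →ₗ[ℂ] ℂ) (hκ : ∀ a, (∀ i, κ i a = 0) → a = 0)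
    (hol : ∀ i, HolM (range j) fun y => κ i (hM y)) {φ : ℝ → Mod A l τ → Mod A l τ}
    (hc : ContinuousOn (fun q : ℝ × Mod A l τ => φ q.1 q.2) (univ ×ˢ range j))
    (h0 : ∀ x, φ 0 (j x) = j x) (ha : ∀ s t x, φ (s + t) (j x) = φ s (φ t (j x)))
    (hr : ∀ t x, φ t (j x) ∈ range j)
    (he : ∀ t x, hM (φ t (j x)) = scB (Real.exp t : ℝ) (hM (j x))) {R : ℕ}
    (van : ∀ m : ℤ, 2 * R < m → ∀ s : sec ((I ℂ X).X m) ⊤, app ((I ℂ X).d m (m + 1)) ⊤ s = 0 →
      ∃ t, app ((I ℂ X).d (m - 1) m) ⊤ t = s) (x : X) : FinAt (2 * R) (fun x => hM (j x)) x := by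
  have : Nonempty X := ⟨x⟩
  obtain ⟨φ', a, b⟩ := Flo.pull hj hc h0 ha hr
  obtain ⟨m, u, hu⟩ := exists_sep κ hκ
  have hs : Scal (fun x => hM (j x)) 0 φ' fun s a => scB (s : ℝ) a := by
    refine ⟨a, continuous_scBR, fun a => ?_, fun s => ?_, fun t x => by rw [b, he]⟩
    · funext i
      simp [scB]
    · funext i
      simp [scB]
  exact fd htop hh hs (hat hj rng) (fun x _ => hat_cov kur x)
    (fun i a => κ (u i) a) hu (fun D c hc x hx i => hat_hol (hol (u i)) D c hc x hx) van x

end P275FS
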