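import Vale.Agent.P277Z.Pj.Prj1

/-! Quasi finiteness of an analytic family at a point is an open condition. -/

open scoped Topology
open Set Filter Metric Vale.Agent.P272.K Vale.Agent.P277.H762

noncomputable section

namespace P275FS

theorem exists_dir {V : Type} [NormedAddCommGroup V] [NormedSpace ℂ V] [Nontrivial V] {f : V → ℂ}
    (hf : AnalyticAt ℂ f 0) (hne : ¬ ∀ᶠ y in 𝓝 (0 : V), f y = 0) :
    ∃ v : V, v ≠ 0 ∧ ¬ ∀ᶠ t in 𝓝 (0 : ℂ), f (t • v) = 0 := by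
  by_cases h0 : f 0 = 0
  swap
  · obtain ⟨v, hv⟩ := exists_ne (0 : V)
    exact ⟨v, hv, fun h => h0 (by simpa using h.self_of_nhds)⟩
  obtain ⟨ρ, hρ, hball⟩ := Metric.eventually_nhds_iff_ball.1 hf.eventually_analyticAt
  obtain ⟨y, hy, hy0⟩ : ∃ y ∈ ball (0 : V) ρ, f y ≠ 0 := by
    by_contra hcon
    push Not at hcon
    exact hne (by filter_upwards [ball_mem_nhds (0 : V) hρ] with y hy using hcon y hy)
  refine ⟨y, fun h => hy0 (h ▸ h0), fun hz => hy0 ?_⟩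
  have hS : Convex ℝ {t : ℂ | t • y ∈ ball (0 : V) ρ} := by
    intro a ha b hb s t hs ht hst
    have := (convex_ball (0 : V) ρ) ha hb hs ht hst
    simpa [add_smul, smul_smul, ← Complex.coe_smul] using this
  have han : AnalyticOnNhd ℂ (fun t : ℂ => f (t • y)) {t : ℂ | t • y ∈ ball (0 : V) ρ} :=
    fun t ht => AnalyticAt.comp_of_eq (g := f) (hball _ ht) (analyticAt_id.smul analyticAt_const) rfl
  have := han.eqOn_zero_of_preconnected_of_eventuallyEq_zero hS.isPreconnected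
    (z₀ := 0) (by simpa using hρ) hz (x := 1) (by simpa using hy)
  simpa using this

theorem qf0 (n : ℕ) : ∀ (V : Type) [NormedAddCommGroup V] [NormedSpace ℂ V]
    [FiniteDimensional ℂ V], Module.finrank ℂ V = n →
    ∀ (W : Type) [NormedAddCommGroup W] [NormedSpace ℂ W] (w₀ : W) (m : ℕ)
      (F : Fin m → V × W → ℂ), (∀ i, AnalyticAt ℂ (F i) (0, w₀)) →
      (∃ N ∈ 𝓝 (0 : V), {y | y ∈ N ∧ ∀ i, F i (y, w₀) = 0}.Countable) →
      ∃ N ∈ 𝓝 (0 : V), ∀ᶠ w in 𝓝 w₀, {y | y ∈ N ∧ ∀ i, F i (y, w) = 0}.Finite := by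
  induction n with
  | zero =>
    intro V _ _ _ hV W _ _ w₀ m F _ _
    have : Subsingleton V := Module.finrank_zero_iff.1 hV
    exact ⟨univ, univ_mem, Eventually.of_forall fun w => Set.toFinite _⟩
  | succ n ih =>
    rintro V _ _ _ hV W _ _ w₀ m F hF ⟨N, hN, hNc⟩
    have : Nontrivial V := Module.nontrivial_of_finrank_eq_succ hV
    have hFa : ∀ i, AnalyticAt ℂ (fun y : V => F i (y, w₀)) 0 := fun i =>
      AnalyticAt.comp_of_eq (g := F i) (hF i) (analyticAt_id.prod analyticAt_const) rfl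
    obtain ⟨j, hj⟩ : ∃ j, ¬ ∀ᶠ y in 𝓝 (0 : V), F j (y, w₀) = 0 := by
      by_contra hcon
      push Not at hcon
      have h2 : {y | y ∈ N ∧ ∀ i, F i (y, w₀) = 0} ∈ 𝓝 (0 : V) := by
        filter_upwards [hN, eventually_all.2 hcon] with y a b using ⟨a, b⟩
      refine not_cv_nhds (k := 0) (by omega) h2 ?_
      refine (cv_biUnion hNc (T := fun y => {y}) fun y _ => ?_).mono
        fun y hy => mem_biUnion hy rfl
      exact ⟨fun _ => univ, fun _ _ => y, fun _ => isOpen_univ, fun _ _ _ => analyticAt_const,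
        fun x hx => mem_iUnion.2 ⟨0, 0, trivial, hx.symm⟩⟩
    obtain ⟨v, hv0, hv⟩ := exists_dir (hFa j) hj
    obtain ⟨L, hL⟩ : ∃ L : (ℂ × Cm n) ≃L[ℂ] V, L (1, 0) = v := by
      have h : Module.finrank ℂ (ℂ × Cm n) = Module.finrank ℂ V := by
        rw [Module.finrank_prod, Module.finrank_self, Module.finrank_fin_fun, hV, add_comm]
      set L₀ : (ℂ × Cm n) ≃L[ℂ] V := ContinuousLinearEquiv.ofFinrankEq h
      have h1 : L₀ (1, 0) ≠ 0 := by
        rw [Ne, L₀.map_eq_zero_iff]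
        intro h2
        simpa using congrArg Prod.fst h2
      obtain ⟨A, hA⟩ := SeparatingDual.exists_continuousLinearEquiv_apply_eq (R := ℂ) h1 hv0
      exact ⟨L₀.trans A, hA⟩
    have hLt : ∀ t : ℂ, L (t, 0) = t • v := by
      intro t
      have : ((t, 0) : ℂ × Cm n) = t • (1, 0) := by ext <;> simp
      rw [this, map_smul, hL]
    have hL0 : L ((0 : ℂ), (0 : Cm n)) = 0 := L.map_zero
    set G : Fin m → ℂ × (Cm n × W) → ℂ := fun i z => F i (L (z.1, z.2.1), z.2.2) with hG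
    have hmapa : AnalyticAt ℂ (fun z : ℂ × (Cm n × W) =>
        ((L (z.1, z.2.1), z.2.2) : V × W)) (0, (0, w₀)) := by
      refine AnalyticAt.prod ?_ (analyticAt_snd.comp_of_eq analyticAt_snd rfl)
      refine (L : (ℂ × Cm n) →L[ℂ] V).analyticAt _ |>.comp ?_
      exact analyticAt_fst.prod (analyticAt_fst.comp_of_eq analyticAt_snd rfl)
    have hGa : ∀ i, AnalyticAt ℂ (G i) (0, (0, w₀)) := fun i =>
      AnalyticAt.comp_of_eq (g := F i) (hF i) hmapa (by simp only [hL0])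
    have hg : AnalyticAt ℂ (fun t : ℂ => G j (t, (0, w₀))) 0 :=
      AnalyticAt.comp_of_eq (g := G j) (hGa j) (analyticAt_id.prod analyticAt_const) rfl
    obtain ⟨b, u, hu, hu0, hFu⟩ := hg.exists_eventuallyEq_pow_smul_nonzero_iff.2 (by
      simpa only [hG, hLt] using hv)
    have hFu' : ∀ᶠ t in 𝓝 (0 : ℂ), G j (t, (0, w₀)) = t ^ b * u t := by
      simpa only [sub_zero, smul_eq_mul] using hFu
    obtain ⟨ε₀, hε₀, hel⟩ := exists_elim hGa j hu hu0 hFu'
    obtain ⟨P, q, hP, -, -, -, -, hPq⟩ := Vale.Agent.P267.H823.weierstrass (hGa j) hu hu0 hFu'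
    have hNn : ∀ᶠ z : ℂ × (Cm n × W) in 𝓝 (0, (0, w₀)), L (z.1, z.2.1) ∈ N := by
      have h1 : Continuous fun z : ℂ × (Cm n × W) => L (z.1, z.2.1) := by fun_prop
      exact h1.continuousAt.preimage_mem_nhds (by simpa only [hL0] using hN)
    obtain ⟨ρ, hρ, hball⟩ := Metric.eventually_nhds_iff_ball.1 (hPq.and hNn)
    obtain ⟨k, E, hEa, hE⟩ := hel (min ε₀ ρ) (lt_min hε₀ hρ) (min_le_left _ _)
    obtain ⟨N₁, hN₁, W₁, hW₁, hNW⟩ := mem_nhds_prod_iff.1
      (hE.and (ball_mem_nhds ((0 : Cm n), w₀) hρ))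
    have hmem : ∀ (t : ℂ) (p : Cm n × W), ‖t‖ < min ε₀ ρ → p ∈ ball ((0 : Cm n), w₀) ρ →
        ((t, p) : ℂ × (Cm n × W)) ∈ ball ((0 : ℂ), ((0 : Cm n), w₀)) ρ := by
      intro t p ht hp
      rw [mem_ball, Prod.dist_eq, max_lt_iff]
      exact ⟨by simpa using ht.trans_le (min_le_right _ _), hp⟩
    obtain ⟨N₂, hN₂, hfin⟩ := ih (Cm n) (Module.finrank_fin_fun ℂ) W w₀ k E hEa ⟨N₁, hN₁, by
      refine (hNc.image fun y => (L.symm y).2).mono ?_
      rintro y ⟨hy, hy'⟩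
      obtain ⟨h1, h2⟩ := hNW (mk_mem_prod hy (mem_of_mem_nhds hW₁))
      obtain ⟨t, ht, htG⟩ := h1.2 hy'
      exact ⟨L (t, y), ⟨(hball _ (hmem t _ ht h2)).2, htG⟩, by simp⟩⟩
    refine ⟨L.symm ⁻¹' (ball 0 (min ε₀ ρ) ×ˢ (N₁ ∩ N₂)), ?_, ?_⟩
    · refine L.symm.continuous.continuousAt.preimage_mem_nhds ?_
      rw [map_zero]
      exact prod_mem_nhds (ball_mem_nhds _ (lt_min hε₀ hρ)) (inter_mem hN₁ hN₂)
    filter_upwards [hfin, hW₁] with w hw hw₁
    refine (hw.biUnion (t := fun y => (fun t => L (t, y)) '' ((P (y, w)).roots.toFinset : Set ℂ))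
      fun y _ => (Finset.finite_toSet _).image _).subset ?_
    rintro y ⟨⟨h1, h2, h3⟩, hy⟩
    have ht : ‖(L.symm y).1‖ < min ε₀ ρ := by simpa using h1
    obtain ⟨h4, h5⟩ := hNW (mk_mem_prod h2 hw₁)
    have h6 : ∀ i, G i ((L.symm y).1, ((L.symm y).2, w)) = 0 := fun i => by
      simpa [hG] using hy i
    refine mem_biUnion (x := (L.symm y).2) ⟨h3, h4.1 ⟨_, ht, h6⟩⟩ ⟨(L.symm y).1, ?_, by simp⟩
    have h7 := (hball _ (hmem _ _ ht h5)).1
    rw [h6 j, zero_mul] at h7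
    simp only [Finset.mem_coe, Multiset.mem_toFinset]
    exact (Polynomial.mem_roots (hP _).1.ne_zero).2 h7.symm

/-- If the fibre of an analytic map through `z` is countable near `z`, then all fibres are finite
near `z`. -/
theorem qf {V : Type} [NormedAddCommGroup V] [NormedSpace ℂ V] [FiniteDimensional ℂ V] {ι : Type}
    [Finite ι] {Φ : ι → V → ℂ} {z : V} (hΦ : ∀ i, AnalyticAt ℂ (Φ i) z) {N : Set V}
    (hN : N ∈ 𝓝 z) (hc : {y | y ∈ N ∧ ∀ i, Φ i y = Φ i z}.Countable) :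
    ∃ U ∈ 𝓝 z, ∀ w : ι → ℂ, {y | y ∈ U ∧ ∀ i, Φ i y = w i}.Finite := by
  obtain ⟨m, ⟨e⟩⟩ := Finite.exists_equiv_fin ι
  have hadd : Tendsto (fun y : V => z + y) (𝓝 0) (𝓝 z) :=
    (continuous_const.add continuous_id).tendsto' _ _ (add_zero z)
  have hsub : Tendsto (fun y : V => y - z) (𝓝 z) (𝓝 0) :=
    (continuous_id.sub continuous_const).tendsto' _ _ (sub_self z)
  obtain ⟨N₁, hN₁, h₁⟩ := qf0 _ V rfl (Cm m) (fun i => Φ (e.symm i) z) m
    (fun i p => Φ (e.symm i) (z + p.1) - p.2 i) (fun i => by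
      refine AnalyticAt.sub ?_ ?_
      · exact AnalyticAt.comp_of_eq (g := Φ (e.symm i)) (hΦ _)
          (analyticAt_const.add analyticAt_fst) (add_zero z)
      · exact ((ContinuousLinearMap.proj (R := ℂ) (φ := fun _ : Fin m => ℂ) i).analyticAt _).comp
          analyticAt_snd) ⟨(fun y => z + y) ⁻¹' N, hadd hN, by
      refine (hc.image fun y => y - z).mono ?_
      rintro y ⟨hy, hy'⟩
      refine ⟨z + y, ⟨hy, fun i => ?_⟩, by simp⟩
      simpa [sub_eq_zero] using hy' (e i)⟩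
  have hcont : Tendsto (fun y : V => (fun i => Φ (e.symm i) y : Cm m)) (𝓝 z)
      (𝓝 fun i => Φ (e.symm i) z) := tendsto_pi_nhds.2 fun i => (hΦ _).continuousAt
  refine ⟨_, inter_mem (hsub hN₁) (hcont h₁), fun w => ?_⟩
  by_contra hcon
  obtain ⟨y₀, ⟨-, h₀⟩, h₀'⟩ := Set.Infinite.nonempty hcon
  refine hcon ?_
  refine (Set.Finite.image (fun y => z + y) h₀).subset ?_
  rintro y ⟨⟨hy, -⟩, hy'⟩
  refine ⟨y - z, ⟨hy, fun i => ?_⟩, by simp⟩
  simp [hy', h₀']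

/-- If the fibre of an analytic map through `z` is covered near `z` by countably many analytic
images of dimension `k`, then a linear map to `ℂ^k` is finite on all fibres near `z`. -/
theorem qf_cv {V : Type} [NormedAddCommGroup V] [NormedSpace ℂ V] [FiniteDimensional ℂ V]
    {ι : Type} [Finite ι] {Φ : ι → V → ℂ} {z : V} (hΦ : ∀ i, AnalyticAt ℂ (Φ i) z) {N : Set V}
    (hN : N ∈ 𝓝 z) {k : ℕ} (hc : Cv k {y | y ∈ N ∧ ∀ i, Φ i y = Φ i z}) :
    ∃ (π : V →L[ℂ] Cm k), ∃ U ∈ 𝓝 z, ∀ (w : ι → ℂ) (b : Cm k),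
      {y | y ∈ U ∧ (∀ i, Φ i y = w i) ∧ π y = b}.Finite := by
  let L : V ≃L[ℂ] Cm (Module.finrank ℂ V) :=
    ContinuousLinearEquiv.ofFinrankEq (Module.finrank_fin_fun ℂ).symm
  obtain ⟨π, hπ, -⟩ := Vale.Agent.P277Z.Pj.H38.exists_proj (κ := Empty) (L z) k _
    (fun j => j.elim) (hc.image (F := L) isOpen_univ (subset_univ _)
      fun y _ => L.toContinuousLinearMap.analyticAt y) (fun j => j.elim)
  let π' : V →L[ℂ] Cm k := π.comp L.toContinuousLinearMap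
  obtain ⟨U, hU, h⟩ := qf (ι := ι ⊕ Fin k) (Φ := Sum.elim Φ fun i y => π' y i) (z := z) (by
    rintro (i | i)
    · exact hΦ i
    · exact ((ContinuousLinearMap.proj (R := ℂ) (φ := fun _ : Fin k => ℂ) i).comp π').analyticAt z)
    hN (by
      refine (hπ.image L.symm).mono ?_
      rintro y ⟨hy, hy'⟩
      exact ⟨L y, ⟨⟨y, ⟨hy, fun i => hy' (.inl i)⟩, rfl⟩, funext fun i => hy' (.inr i)⟩, by simp⟩)
  refine ⟨π', U, hU, fun w b => (h (Sum.elim w b)).subset ?_⟩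
  rintro y ⟨hy, h1, h2⟩
  refine ⟨hy, ?_⟩
  rintro (i | i)
  · exact h1 i
  · exact congrFun h2 i

end P275FS
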