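import Vale.Agent.P275FS.Qf

/-! Local finite maps on the fibres of a proper map with a contracting scaling. -/

open scoped Topology
open Set Filter Metric Vale.Agent.P272.K Vale.Agent.P277.H762

noncomputable section

namespace P275FS

variable {M M' A A' : Type} [TopologicalSpace M] [TopologicalSpace M']

/-- Near each of its points `B` has a continuous map to `ℝ^d` with finite fibres. -/
def LocFin (d : ℕ) (B : Set M) : Prop :=
  ∀ x ∈ B, ∃ V ∈ 𝓝 x, ∃ g : M → Fin d → ℝ, ContinuousOn g (B ∩ V) ∧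
    ∀ r, (B ∩ V ∩ g ⁻¹' {r}).Finite

/-- Near `x` there is a continuous map to `ℝ^d` which is finite on all fibres of `h`. -/
def FinAt (d : ℕ) (h : M → A) (x : M) : Prop :=
  ∃ V ∈ 𝓝 x, ∃ g : M → Fin d → ℝ, ContinuousOn g V ∧
    ∀ a r, {y | y ∈ V ∧ h y = a ∧ g y = r}.Finite

/-- In a chart at `x` the map `h` has analytic coordinates, and the fibre through `x` is covered
near `x` by countably many analytic images of open subsets of `ℂ^k`. -/
def CvAt (k : ℕ) (h : M → A) (x : M) : Prop :=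
  ∃ (N m : ℕ) (e : OpenPartialHomeomorph M (Cm N)) (κ : Fin m → A → ℂ),
    (∀ a b, (∀ i, κ i a = κ i b) → a = b) ∧ x ∈ e.source ∧
    (∀ i, AnalyticAt ℂ (fun z => κ i (h (e.symm z))) (e x)) ∧
    ∃ W ∈ 𝓝 (e x), Cv k {z | z ∈ W ∧ h (e.symm z) = h x}

variable {d : ℕ} {h : M → A}

theorem LocFin.mono {B B' : Set M} (H : LocFin d B) (hB : B' ⊆ B) : LocFin d B' := by
  intro x hx
  obtain ⟨V, hV, g, hg, hf⟩ := H x (hB hx)
  exact ⟨V, hV, g, hg.mono (inter_subset_inter_left _ hB),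
    fun r => (hf r).subset (inter_subset_inter_left _ (inter_subset_inter_left _ hB))⟩

theorem LocFin.preimage {B : Set M} (H : LocFin d B) {φ : M' → M} (hφ : Continuous φ)
    (hi : Function.Injective φ) : LocFin d (φ ⁻¹' B) := by
  intro x hx
  obtain ⟨V, hV, g, hg, hf⟩ := H _ hx
  exact ⟨φ ⁻¹' V, hφ.continuousAt.preimage_mem_nhds hV, g ∘ φ,
    hg.comp hφ.continuousOn fun y hy => hy, fun r =>
      ((hf r).preimage (f := φ) hi.injOn).subset fun y hy => hy⟩

theorem LocFin.subtype {B : Set M} (H : LocFin d B) : LocFin d (univ : Set B) :=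
  (H.preimage continuous_subtype_val Subtype.val_injective).mono fun y _ => y.2

theorem FinAt.eventually {x : M} (H : FinAt d h x) : ∀ᶠ y in 𝓝 x, FinAt d h y := by
  obtain ⟨V, hV, g, hg, hf⟩ := H
  filter_upwards [eventually_mem_nhds_iff.2 hV] with y hy using ⟨V, hy, g, hg, hf⟩

theorem isOpen_finAt : IsOpen {x | FinAt d h x} := isOpen_iff_mem_nhds.2 fun _ H => H.eventually

theorem FinAt.comp {h' : M' → A'} {φ : M' → M} {ψ : A' → A} {x : M'} (H : FinAt d h (φ x))
    (hφ : Continuous φ) (hi : Function.Injective φ) (hψ : ∀ y, h (φ y) = ψ (h' y)) :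
    FinAt d h' x := by
  obtain ⟨V, hV, g, hg, hf⟩ := H
  refine ⟨φ ⁻¹' V, hφ.continuousAt.preimage_mem_nhds hV, g ∘ φ,
    hg.comp hφ.continuousOn fun y hy => hy, fun a r =>
      ((hf (ψ a) r).preimage hi.injOn).subset ?_⟩
  rintro y ⟨h1, h2, h3⟩
  exact ⟨h1, by rw [hψ, h2], h3⟩

/-- real coordinates of `ℂ^k` -/
def reim (k : ℕ) (z : Cm k) : Fin (2 * k) → ℝ := fun i =>
  Fin.append (fun j => (z j).re) (fun j => (z j).im) (i.cast (two_mul k))

theorem continuous_reim (k : ℕ) : Continuous (reim k) := by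
  refine continuous_pi fun i => ?_
  unfold reim
  generalize i.cast (two_mul k) = j
  induction j using Fin.addCases with
  | left j => simp only [Fin.append_left]; fun_prop
  | right j => simp only [Fin.append_right]; fun_prop

theorem reim_injective (k : ℕ) : Function.Injective (reim k) := by
  intro z w H
  funext j
  refine Complex.ext ?_ ?_
  · simpa only [reim, Fin.cast_cast, Fin.cast_eq_self, Fin.append_left] using
      congrFun H ((Fin.castAdd k j).cast (two_mul k).symm)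
  · simpa only [reim, Fin.cast_cast, Fin.cast_eq_self, Fin.append_right] using
      congrFun H ((Fin.natAdd k j).cast (two_mul k).symm)

/-- The chart may have values in any finite dimensional space. -/
theorem finAt_of_chart {V : Type} [NormedAddCommGroup V] [NormedSpace ℂ V] [FiniteDimensional ℂ V]
    {ι : Type} [Finite ι] {k : ℕ} {x : M} (e : OpenPartialHomeomorph M V) (κ : ι → A → ℂ)
    (hκ : ∀ a b, (∀ i, κ i a = κ i b) → a = b) (hx : x ∈ e.source)
    (ha : ∀ i, AnalyticAt ℂ (fun z => κ i (h (e.symm z))) (e x)) {W : Set V} (hW : W ∈ 𝓝 (e x))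
    (hc : Cv k {z | z ∈ W ∧ h (e.symm z) = h x}) : FinAt (2 * k) h x := by
  obtain ⟨π, U, hU, hf⟩ := qf_cv ha hW (k := k) (hc.mono fun z hz =>
    ⟨hz.1, hκ _ _ fun i => by simpa only [e.left_inv hx] using hz.2 i⟩)
  refine ⟨e.source ∩ e ⁻¹' U, inter_mem (e.open_source.mem_nhds hx)
    ((e.continuousAt hx).preimage_mem_nhds hU), fun y => reim k (π (e y)),
    ((continuous_reim k).comp π.continuous).comp_continuousOn
      (e.continuousOn.mono inter_subset_left), fun a r => ?_⟩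
  by_contra hcon
  obtain ⟨y₀, -, -, h₀⟩ := Set.Infinite.nonempty hcon
  refine hcon (((hf (fun i => κ i a) (π (e y₀))).image e.symm).subset ?_)
  rintro y ⟨h1, h2, h3⟩
  exact ⟨e y, ⟨h1.2, fun i => by rw [e.left_inv h1.1, h2],
    reim_injective k (h3.trans h₀.symm)⟩, e.left_inv h1.1⟩

theorem CvAt.finAt {k : ℕ} {x : M} (H : CvAt k h x) : FinAt (2 * k) h x := by
  obtain ⟨N, m, e, κ, hκ, hx, ha, W, hW, hc⟩ := H
  exact finAt_of_chart e κ hκ hx ha hW hc

/-- A set which is analytic and of dimension at most `k` in charts has local finite maps. -/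
theorem locFin_of_an {V : Type} [NormedAddCommGroup V] [NormedSpace ℂ V] [FiniteDimensional ℂ V]
    {k : ℕ} {S : Set M} (H : ∀ x ∈ S, ∃ (e : OpenPartialHomeomorph M V) (m : ℕ)
      (Φ : Fin m → V → ℂ), x ∈ e.source ∧ (∀ i, AnalyticAt ℂ (Φ i) (e x)) ∧
      (∀ᶠ y in 𝓝 x, y ∈ S ↔ ∀ i, Φ i (e y) = 0) ∧
      ∃ W ∈ 𝓝 x, Cv k (e '' (S ∩ W))) : LocFin (2 * k) S := by
  intro x hx
  obtain ⟨e, m, Φ, hxe, ha, hS, W, hW, hc⟩ := H x hx
  have h0 : ∀ i, Φ i (e x) = 0 := hS.self_of_nhds.1 hx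
  have ht : Tendsto e.symm (𝓝 (e x)) (𝓝 x) := e.tendsto_symm hxe
  obtain ⟨V', hV', g, hg, hf⟩ := finAt_of_chart (h := fun y i => Φ i (e y)) (k := k) e
    (fun i a => a i) (fun a b hab => funext hab) hxe (fun i => (ha i).congr (by
      filter_upwards [e.open_target.mem_nhds (e.map_source hxe)] with z hz
      rw [e.right_inv hz])) (inter_mem (e.open_target.mem_nhds (e.map_source hxe))
      (inter_mem (ht hW) (ht hS))) (hc.mono (by
      rintro z ⟨⟨h1, h2, h3⟩, h4⟩
      exact ⟨e.symm z, ⟨h3.2 fun i => (congrFun h4 i).trans (h0 i), h2⟩, e.right_inv h1⟩))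
  refine ⟨_, inter_mem hV' hS, g, hg.mono fun y hy => hy.2.1, fun r => (hf 0 r).subset ?_⟩
  rintro y ⟨⟨h1, h2, h3⟩, h4⟩
  exact ⟨h2, funext (h3.1 h1), h4⟩

/-- `Contr h a₀`: every point can be moved, by a continuous injective map which respects the
fibres of `h`, into the preimage of any neighbourhood of `a₀`. -/
def Contr [TopologicalSpace A] (h : M → A) (a₀ : A) : Prop :=
  ∀ x : M, ∀ B ∈ 𝓝 a₀, ∃ (φ : M → M) (ψ : A → A), Continuous φ ∧ Function.Injective φ ∧
    (∀ y, h (φ y) = ψ (h y)) ∧ h (φ x) ∈ B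

/-- A scaling: `h (s • y) = ψ s (h y)` and `ψ s a → a₀` along a filter. -/
theorem contr_of_tendsto [TopologicalSpace A] {a₀ : A} {S : Type} {l : Filter S} [l.NeBot]
    (φ : S → M → M) (ψ : S → A → A) (h1 : ∀ᶠ s in l, Continuous (φ s) ∧ Function.Injective (φ s) ∧
      ∀ y, h (φ s y) = ψ s (h y)) (h2 : ∀ a, Tendsto (fun s => ψ s a) l (𝓝 a₀)) :
    Contr h a₀ := by
  intro x B hB
  obtain ⟨s, ⟨a, b, c⟩, hs⟩ := (h1.and (h2 (h x) hB)).exists
  exact ⟨φ s, ψ s, a, b, c, by rw [c]; exact hs⟩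

theorem finAt_all [TopologicalSpace A] {a₀ : A} (hh : IsClosedMap h) (hc : Contr h a₀)
    (h0 : ∀ x, h x = a₀ → FinAt d h x) (x : M) : FinAt d h x := by
  have h1 : (h '' {x | FinAt d h x}ᶜ)ᶜ ∈ 𝓝 a₀ := by
    refine (hh _ isOpen_finAt.isClosed_compl).isOpen_compl.mem_nhds ?_
    rintro ⟨y, hy, hy'⟩
    exact hy (h0 y hy')
  obtain ⟨φ, ψ, a, b, c, e⟩ := hc x _ h1
  refine FinAt.comp ?_ a b c
  by_contra hcon
  exact e ⟨_, hcon, rfl⟩

theorem locFin_fibre (H : ∀ x, FinAt d h x) (a : A) : LocFin d (h ⁻¹' {a}) := by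
  intro x _
  obtain ⟨V, hV, g, hg, hf⟩ := H x
  exact ⟨V, hV, g, hg.mono inter_subset_right, fun r => (hf a r).subset
    fun y hy => ⟨hy.1.2, hy.1.1, hy.2⟩⟩

/-- preimages: the dimensions add -/
theorem locFin_preimage [TopologicalSpace A] (hh : Continuous h) (H : ∀ x, FinAt d h x) {c : ℕ}
    {T : Set A} (hT : LocFin c T) : LocFin (d + c) (h ⁻¹' T) := by
  intro x hx
  obtain ⟨V, hV, g, hg, hf⟩ := H x
  obtain ⟨W, hW, ν, hν, hνf⟩ := hT _ hx
  refine ⟨V ∩ h ⁻¹' W, inter_mem hV (hh.continuousAt.preimage_mem_nhds hW),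
    fun y => Fin.append (g y) (ν (h y)), continuousOn_pi.2 fun i => ?_, fun r => ?_⟩
  · induction i using Fin.addCases with
    | left j =>
      simp only [Fin.append_left]
      exact continuousOn_pi.1 (hg.mono fun y hy => hy.2.1) j
    | right j =>
      simp only [Fin.append_right]
      exact continuousOn_pi.1 (hν.comp hh.continuousOn fun y hy => ⟨hy.1, hy.2.2⟩) j
  · refine ((hνf fun j => r (Fin.natAdd d j)).biUnion
      fun a _ => hf a fun j => r (Fin.castAdd c j)).subset ?_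
    rintro y ⟨⟨h1, h2, h3⟩, h4⟩
    have h5 : Fin.append (g y) (ν (h y)) = r := h4
    refine mem_biUnion (x := h y) ⟨⟨h1, h3⟩, ?_⟩ ⟨h2, rfl, ?_⟩
    · funext j
      rw [← h5, Fin.append_right]
    · funext j
      rw [← h5, Fin.append_left]

/-- **Semicontinuity and scaling.** -/
theorem finAt_of_cvAt [TopologicalSpace A] {a₀ : A} {k : ℕ} (hh : IsClosedMap h)
    (hc : Contr h a₀) (h0 : ∀ x, h x = a₀ → CvAt k h x) (x : M) : FinAt (2 * k) h x :=
  finAt_all hh hc (fun y hy => (h0 y hy).finAt) x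

/-- finitely many members of a separating family of linear forms separate points -/
theorem exists_sep {V : Type} [AddCommGroup V] [Module ℂ V] [FiniteDimensional ℂ V] {ι : Type}
    (κ : ι → V →ₗ[ℂ] ℂ) (hκ : ∀ a, (∀ i, κ i a = 0) → a = 0) :
    ∃ (m : ℕ) (j : Fin m → ι), ∀ a b, (∀ i, κ (j i) a = κ (j i) b) → a = b := by
  classical
  obtain ⟨_, ⟨s, rfl⟩, hs⟩ := (wellFounded_lt (α := Submodule ℂ V)).has_min
    (range fun s : Finset ι => s.inf fun i => LinearMap.ker (κ i)) ⟨_, ∅, rfl⟩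
  refine ⟨s.card, fun i => s.equivFin.symm i, fun a b hab => ?_⟩
  have h1 : a - b ∈ s.inf fun i => LinearMap.ker (κ i) := by
    refine Submodule.mem_finsetInf.2 fun i hi => ?_
    have := hab (s.equivFin ⟨i, hi⟩)
    simpa [sub_eq_zero] using this
  refine sub_eq_zero.1 (hκ _ fun i => ?_)
  have h2 : (insert i s).inf (fun i => LinearMap.ker (κ i)) = s.inf fun i => LinearMap.ker (κ i) :=
    (Finset.inf_mono (Finset.subset_insert i s)).eq_of_not_lt (hs _ ⟨_, rfl⟩)
  rw [← h2] at h1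
  exact Submodule.mem_finsetInf.1 h1 i (Finset.mem_insert_self i s)

end P275FS
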