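import Vale.Agent.P275FS.Cd
import Vale.Agent.P275S.Taut
import Vale.Agent.P275LM.Flow
import Vale.Agent.P275MO.Props

/-! A uniform bound for the cohomological dimension of the moduli spaces. -/

open CategoryTheory TopologicalSpace Set Filter P275S
open scoped Topology
open Vale.Agent Vale.Agent.P272.K
open Vale.Agent.P275LM (Flo Att)
open Vale.Agent.P275MO (Ty Mod KUR)
open Vale.Agent.P275NA (Cy)

noncomputable section

namespace P275FS

variable {M A : Type} [TopologicalSpace M] {h : M → A} {x : M} {d d' : ℕ}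

theorem FinAt.mono (H : FinAt d h x) (hd : d ≤ d') : FinAt d' h x := by
  obtain ⟨V, hV, g, hg, hf⟩ := H
  refine ⟨V, hV, fun y i => if a : (i : ℕ) < d then g y ⟨i, a⟩ else 0,
    continuousOn_pi.2 fun i => ?_, fun a r => (hf a fun i => r (i.castLE hd)).subset ?_⟩
  · split_ifs with a
    · exact continuousOn_pi.1 hg _
    · exact continuousOn_const
  · rintro y ⟨a, b, rfl⟩
    exact ⟨a, b, funext fun i => by simp⟩

theorem finAt_of_inj {E : Type} [NormedAddCommGroup E] [NormedSpace ℂ E] [FiniteDimensional ℂ E]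
    (e : OpenPartialHomeomorph M E) (hx : x ∈ e.source) :
    FinAt (2 * Module.finrank ℂ E) h x := by
  let c : E ≃L[ℂ] Cm (Module.finrank ℂ E) := ContinuousLinearEquiv.ofFinrankEq (by simp)
  refine ⟨e.source, e.open_source.mem_nhds hx, fun y => reim _ (c (e y)),
    ((continuous_reim _).comp c.continuous).comp_continuousOn e.continuousOn, fun a r => ?_⟩
  refine Set.Subsingleton.finite fun y hy z hz => e.injOn hy.1 hz.1 ?_
  exact c.injective (reim_injective _ (hy.2.2.trans hz.2.2.symm))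

theorem locFin_of_att {φ : ℝ → M → M} {N : Set M} (att : Att φ N)
    (H : ∀ x : M, ∃ d, FinAt d (fun _ => ()) x) : ∃ d, LocFin d (univ : Set M) := by
  obtain ⟨d, hd⟩ := att.cpt.elim_directed_cover (fun d => {x | FinAt d (fun _ => ()) x})
    (fun _ => isOpen_finAt) (fun x _ => mem_iUnion.2 (H x))
    (Monotone.directed_le fun _ _ a _ b => FinAt.mono b a)
  refine ⟨d, (locFin_fibre (h := fun _ => ()) (fun y => ?_) ()).mono fun _ _ => rfl⟩
  obtain ⟨t, ht⟩ := att.near y _ isOpen_finAt hd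
  exact FinAt.comp (ψ := id) ht (att.toFlo.c1 t) (att.toFlo.hm t).injective fun _ => rfl

/-- compact subsets -/
theorem hd_bot {X F : TopCat.{0}} [Nice X] (k : Type) [Field k] (hd : LocFin d (univ : Set X))
    {i : F ⟶ X} (hi : Topology.IsInducing i) (hc : IsCompact (range i)) {m : ℤ} (hm : d < m) :
    Hd k F m = ⊥ :=
  (van_range_iff hi hc).1 (van_I k isClosed_empty hc (hd.mono (subset_univ _)) hm)

/-- nice spaces -/
theorem hd_bot' {X : TopCat.{0}} [Nice X] (k : Type) [Field k] (hd : LocFin d (univ : Set X))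
    {m : ℤ} (hm : d + 1 < m) : Hd k X m = ⊥ :=
  Hd_eq_bot_iff.2 (gam_I k ⊤ hd hm)

variable {C : Type} [TopologicalSpace C] {n : ℕ} {A : P275GC.At C} {l : Cy A ℂ} {τ : Ty n}
  {φ : ℝ → Mod A l τ → Mod A l τ} {N : Set (Mod A l τ)}

theorem locFin_mod (kur : KUR n A l) (att : Att φ N) : ∃ d, LocFin d (univ : Set (Mod A l τ)) :=
  locFin_of_att att fun y => let ⟨K, hK⟩ := kur τ y; ⟨_, finAt_of_inj K.e hK⟩

/-- **the uniform bound**: nice spaces which inject into the moduli space, and their compact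
subsets -/
theorem ub (kur : KUR n A l) (att : Att φ N) : ∃ b : ℤ, ∀ (X : TopCat.{0}) [Nice X]
    (j : X → Mod A l τ), Continuous j → Function.Injective j → (∀ m, b < m → Hd ℂ X m = ⊥) ∧
    ∀ (F : TopCat.{0}) (i : F ⟶ X), Topology.IsInducing i → IsCompact (range i) →
      ∀ m, b < m → Hd ℂ F m = ⊥ := by
  obtain ⟨d, hd⟩ := locFin_mod kur att
  refine ⟨d + 1, fun X _ j hj hi => ?_⟩
  have h := hd.preimage hj hi
  exact ⟨fun m hm => hd_bot' ℂ h hm, fun F i a b m hm => hd_bot ℂ h a b (by omega)⟩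

end P275FS
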